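import Vale.Agent.P038.Defs
import Vale.Agent.P038.H391.MF

/-!
# The strict inequality (G) for a counterexample with the fewest arcs, and the conclusion
-/

namespace Vale.Agent.P038.H473

open Finset Vale.Agent.P038.H391

universe u

variable {V : Type u} [Fintype V] [DecidableEq V]

/-- The closed out-neighbourhoods of a counterexample. -/
structure CE (N : V → Finset V) : Prop where
  refl : ∀ a, a ∈ N a
  anti : ∀ a b, b ∈ N a → a ∈ N b → a = b
  ce : ∀ v, (nb N (N v)).card + 1 < 2 * (N v).card

theorem subset_nb {N : V → Finset V} (h : ∀ a, a ∈ N a) (S : Finset V) : S ⊆ nb N S :=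
  fun x hx => mem_nb.2 ⟨x, hx, h x⟩

/-- (G) in a counterexample with the fewest arcs. -/
theorem strictG {N : V → Finset V} (h : CE N)
    (hmin : ∀ N' : V → Finset V, CE N' → ∑ v, (N v).card ≤ ∑ v, (N' v).card)
    (X : Finset V) (hX : nb N X ≠ X) :
    (nb N (nb N X)).card + X.card < 2 * (nb N X).card := by
  classical
  by_contra hcon
  push Not at hcon
  set L := nb N X \ X with hL
  have hXN : X ⊆ nb N X := subset_nb h.refl X
  have hLne : L.Nonempty := by
    rw [Finset.nonempty_iff_ne_empty]
    intro h0
    exact hX (Finset.Subset.antisymm (Finset.sdiff_eq_empty_iff_subset.1 h0) hXN)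
  -- the functional
  let d : Finset V → ℤ := fun T => ((nb N T \ X).card : ℤ) - 2 * T.card
  obtain ⟨T, hT, hTmin⟩ := Finset.exists_min_image (L.powerset.erase L) d
    ⟨∅, by simp [hLne.ne_empty.symm]⟩
  rw [Finset.mem_erase, Finset.mem_powerset] at hT
  obtain ⟨hTL, hTsub⟩ := hT
  have hd0 : d T ≤ d ∅ := hTmin ∅ (by simp [hLne.ne_empty.symm])
  have hdempty : d ∅ = 0 := by simp [d, nb]
  have hdL : 0 ≤ d L := by
    have h1 : nb N L \ X = nb N (nb N X) \ X := by
      ext z
      simp only [Finset.mem_sdiff, mem_nb]
      constructor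
      · rintro ⟨⟨x, hx, hz⟩, hzX⟩
        rw [hL, Finset.mem_sdiff, mem_nb] at hx
        exact ⟨⟨x, hx.1, hz⟩, hzX⟩
      · rintro ⟨⟨x, hx, hz⟩, hzX⟩
        refine ⟨?_, hzX⟩
        by_cases hxX : x ∈ X
        · refine ⟨z, ?_, h.refl z⟩
          rw [hL, Finset.mem_sdiff, mem_nb]
          exact ⟨⟨x, hxX, hz⟩, hzX⟩
        · refine ⟨x, ?_, hz⟩
          rw [hL, Finset.mem_sdiff, mem_nb]
          exact ⟨hx, hxX⟩
    have h2 : X ⊆ nb N (nb N X) := hXN.trans (subset_nb h.refl _)
    have h3 := Finset.card_sdiff_add_card_eq_card h2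
    have h4 := Finset.card_sdiff_add_card_eq_card hXN
    simp only [d, h1]
    rw [← hL] at h4
    omega
  -- the surplus
  have hkey : ∀ D' : Finset V, D' ⊆ L \ T →
      2 * D'.card ≤ (nb N D' \ (nb N T ∪ X)).card := by
    intro D' hD'
    have h1 : d T ≤ d (T ∪ D') := by
      by_cases hTD : T ∪ D' = L
      · rw [hTD]; linarith
      · apply hTmin
        rw [Finset.mem_erase, Finset.mem_powerset]
        exact ⟨hTD, Finset.union_subset hTsub (hD'.trans Finset.sdiff_subset)⟩
    have h2 : (T ∪ D').card = T.card + D'.card := by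
      apply Finset.card_union_of_disjoint
      rw [Finset.disjoint_right]
      intro x hx
      exact (Finset.mem_sdiff.1 (hD' hx)).2
    have h3 : nb N (T ∪ D') \ X = (nb N T \ X) ∪ (nb N D' \ (nb N T ∪ X)) := by
      rw [nb_union]
      ext z
      simp only [Finset.mem_sdiff, Finset.mem_union]
      tauto
    have h4 : ((nb N T \ X) ∪ (nb N D' \ (nb N T ∪ X))).card
        = (nb N T \ X).card + (nb N D' \ (nb N T ∪ X)).card := by
      apply Finset.card_union_of_disjoint
      rw [Finset.disjoint_left]
      intro z hz hz'
      simp only [Finset.mem_sdiff, Finset.mem_union] at hz hz'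
      tauto
    simp only [d, h3, h4, h2] at h1
    push_cast at h1
    omega
  -- the new graph
  let N' : V → Finset V := fun y => if y ∈ X then N y ∩ (X ∪ T) else N y
  have hN'sub : ∀ y, N' y ⊆ N y := by
    intro y
    by_cases hy : y ∈ X
    · simp only [N', hy, if_true]
      exact Finset.inter_subset_left
    · simp only [N', hy, if_false]
      exact le_refl _
  have hTX : ∀ c ∈ T, c ∉ X := fun c hc => (Finset.mem_sdiff.1 (hTsub hc)).2
  have hCE' : CE N' := by
    refine ⟨?_, ?_, ?_⟩
    · intro a
      by_cases ha : a ∈ X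
      · simp only [N', ha, if_true]
        exact Finset.mem_inter.2 ⟨h.refl a, Finset.mem_union_left _ ha⟩
      · simp only [N', ha, if_false]
        exact h.refl a
    · intro a b hb ha
      exact h.anti a b (hN'sub a hb) (hN'sub b ha)
    · intro y
      have hnbsub : ∀ S, nb N' S ⊆ nb N S := by
        intro S z hz
        obtain ⟨x, hx, hzx⟩ := mem_nb.1 hz
        exact mem_nb.2 ⟨x, hx, hN'sub x hzx⟩
      by_cases hy : y ∈ X
      · have e : N' y = N y ∩ (X ∪ T) := by simp only [N', hy, if_true]
        set Dy := N y \ (X ∪ T) with hDy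
        have hDyL : Dy ⊆ L \ T := by
          intro z hz
          rw [hDy, Finset.mem_sdiff, Finset.mem_union, not_or] at hz
          rw [Finset.mem_sdiff, hL, Finset.mem_sdiff]
          exact ⟨⟨mem_nb.2 ⟨y, hy, hz.1⟩, hz.2.1⟩, hz.2.2⟩
        have h1 := hkey Dy hDyL
        set Ey := nb N Dy \ (nb N T ∪ X) with hEy
        have h2 : nb N' (N' y) ⊆ nb N (N y) \ Ey := by
          intro z hz
          rw [Finset.mem_sdiff]
          have hz0 := hz
          obtain ⟨c, hc, hzc⟩ := mem_nb.1 hz
          refine ⟨?_, ?_⟩
          · exact mem_nb.2 ⟨c, hN'sub y hc, hN'sub c hzc⟩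
          · intro hzE
            rw [hEy, Finset.mem_sdiff, Finset.mem_union, not_or] at hzE
            obtain ⟨_, hzT, hzX⟩ := hzE
            by_cases hcX : c ∈ X
            · have : z ∈ N c ∩ (X ∪ T) := by
                simpa only [N', hcX, if_true] using hzc
              rw [Finset.mem_inter, Finset.mem_union] at this
              rcases this.2 with h5 | h5
              · exact hzX h5
              · exact hzT (subset_nb h.refl T h5)
            · rw [e, Finset.mem_inter, Finset.mem_union] at hc
              rcases hc.2 with h5 | h5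
              · exact hcX h5
              · exact hzT (mem_nb.2 ⟨c, h5, hN'sub c hzc⟩)
        have h3 : Ey ⊆ nb N (N y) := by
          intro z hz
          rw [hEy, Finset.mem_sdiff] at hz
          obtain ⟨x, hx, hzx⟩ := mem_nb.1 hz.1
          exact mem_nb.2 ⟨x, (Finset.mem_sdiff.1 hx).1, hzx⟩
        have h4 := Finset.card_sdiff_add_card_eq_card h3
        have h5 := Finset.card_le_card h2
        have h6 : (N' y).card + Dy.card = (N y).card := by
          rw [e, hDy]
          exact Finset.card_inter_add_card_sdiff _ _
        have h7 := h.ce y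
        omega
      · have e : N' y = N y := by simp only [N', hy, if_false]
        rw [e]
        have h1 := Finset.card_le_card (hnbsub (N y))
        have h2 := h.ce y
        omega
  have hlt : ∑ v, (N' v).card < ∑ v, (N v).card := by
    apply Finset.sum_lt_sum
    · intro v _
      exact Finset.card_le_card (hN'sub v)
    · obtain ⟨z, hz⟩ : ∃ z, z ∈ L \ T := by
        by_contra hno
        push Not at hno
        apply hTL
        apply Finset.Subset.antisymm hTsub
        intro z hz
        by_contra hzT
        exact hno z (Finset.mem_sdiff.2 ⟨hz, hzT⟩)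
      rw [Finset.mem_sdiff, hL, Finset.mem_sdiff] at hz
      obtain ⟨y, hy, hzy⟩ := mem_nb.1 hz.1.1
      refine ⟨y, Finset.mem_univ _, ?_⟩
      apply Finset.card_lt_card
      refine ⟨hN'sub y, fun hsub => ?_⟩
      have := hsub hzy
      simp only [N', hy, if_true, Finset.mem_inter, Finset.mem_union] at this
      rcases this.2 with h5 | h5
      · exact hz.1.2 h5
      · exact hz.2 h5
  exact absurd (hmin N' hCE') (not_le.2 hlt)

/-- There is no counterexample. -/
theorem no_ce [Nonempty V] (N : V → Finset V) (h : CE N) : False := by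
  classical
  obtain ⟨M, hM, hmin⟩ := Finset.exists_min_image
    (Finset.univ.filter fun M : V → Finset V => CE M) (fun M => ∑ v, (M v).card)
    ⟨N, by simp [h]⟩
  rw [Finset.mem_filter] at hM
  have hM' := hM.2
  have hW : ∀ S : Finset V, W (fun _ => (1 : ℝ)) S = S.card := by
    intro S
    simp [W]
  refine no_strict M hM'.refl hM'.anti (fun _ => 1) (fun _ => one_pos) ?_ ?_
  · intro a
    by_contra hno
    push Not at hno
    have h1 : M a ⊆ {a} := fun b hb => Finset.mem_singleton.2 (hno b hb)
    have h2 := Finset.card_le_card h1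
    have h3 := Finset.card_le_card (subset_nb hM'.refl (M a))
    have h4 := hM'.ce a
    have h5 : 0 < (M a).card := Finset.card_pos.2 ⟨a, hM'.refl a⟩
    rw [Finset.card_singleton] at h2
    omega
  · intro X hX
    have h1 := strictG hM' (fun N' hN' => hmin N' (by simp [hN'])) X hX
    unfold hh
    rw [hW, hW, hW]
    have h2 : ((nb M (nb M X)).card : ℝ) + X.card < 2 * (nb M X).card := by
      exact_mod_cast h1
    linarith

/-- **Seymour's second neighbourhood conjecture.** -/
theorem seymour {V : Type u} [Fintype V] [Nonempty V] (D : OGraph V) :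
    ∃ v, (N1 D v).card ≤ (N2 D v).card := by
  classical
  by_contra hcon
  push Not at hcon
  have hv : ∀ v, v ∉ N1 D v := fun v hv => D.loopless v (mem_N1.1 hv)
  apply no_ce (fun v => insert v (N1 D v))
  refine ⟨fun a => Finset.mem_insert_self _ _, ?_, ?_⟩
  · intro a b hb ha
    rw [Finset.mem_insert, mem_N1] at hb ha
    rcases hb with rfl | hb
    · rfl
    · rcases ha with ha | ha
      · exact ha
      · exact absurd ha (D.asymm a b hb)
  · intro v
    have h1 : nb (fun v => insert v (N1 D v)) (insert v (N1 D v)) ⊆
        insert v (N1 D v) ∪ N2 D v := by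
      intro z hz
      obtain ⟨x, hx, hzx⟩ := mem_nb.1 hz
      rw [Finset.mem_insert, mem_N1] at hx hzx
      rw [Finset.mem_union, Finset.mem_insert, mem_N1, mem_N2]
      by_cases h2 : z = v
      · exact Or.inl (Or.inl h2)
      · by_cases h3 : D.arc v z
        · exact Or.inl (Or.inr h3)
        · right
          refine ⟨h2, h3, ?_⟩
          rcases hx with rfl | hx
          · rcases hzx with rfl | hzx
            · exact absurd rfl h2
            · exact absurd hzx h3
          · rcases hzx with rfl | hzx
            · exact absurd hx h3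
            · exact ⟨x, hx, hzx⟩
    have h2 := (Finset.card_le_card h1).trans (Finset.card_union_le _ _)
    have h3 : (insert v (N1 D v)).card = (N1 D v).card + 1 :=
      Finset.card_insert_of_notMem (hv v)
    have h4 := hcon v
    show (nb (fun v => insert v (N1 D v)) (insert v (N1 D v))).card + 1
      < 2 * (insert v (N1 D v)).card
    omega

end Vale.Agent.P038.H473
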