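import Vale.Agent.P038.MathlibUsed

/-!
# The two-dimensional inequality (STAR)

Greedy marginals of the monotone closure of a submodular function are antitone in the interval.
-/

namespace Vale.Agent.P038.H473

variable {V : Type*} [Fintype V] [LinearOrder V]

/-- The least value of `c` on the interval between `S ∩ C` and `C`. -/
noncomputable def mc (c : Finset V → ℤ) (C S : Finset V) : ℤ :=
  (Finset.univ.filter fun T => S ∩ C ⊆ T ∧ T ⊆ C).inf'
    ⟨C, Finset.mem_filter.2 ⟨Finset.mem_univ _, Finset.inter_subset_right, le_refl _⟩⟩ c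

theorem mc_exists (c : Finset V → ℤ) (C S : Finset V) :
    ∃ T, S ∩ C ⊆ T ∧ T ⊆ C ∧ mc c C S = c T := by
  obtain ⟨T, hT, h⟩ := Finset.exists_mem_eq_inf'
    (s := Finset.univ.filter fun T => S ∩ C ⊆ T ∧ T ⊆ C)
    ⟨C, Finset.mem_filter.2 ⟨Finset.mem_univ _, Finset.inter_subset_right, le_refl _⟩⟩ c
  rw [Finset.mem_filter] at hT
  exact ⟨T, hT.2.1, hT.2.2, h⟩

theorem mc_le (c : Finset V → ℤ) {C S T : Finset V} (h1 : S ∩ C ⊆ T) (h2 : T ⊆ C) :
    mc c C S ≤ c T :=
  Finset.inf'_le c (Finset.mem_filter.2 ⟨Finset.mem_univ _, h1, h2⟩)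

theorem mc_mono (c : Finset V → ℤ) {C S S' : Finset V} (h : S ∩ C ⊆ S' ∩ C) :
    mc c C S ≤ mc c C S' := by
  obtain ⟨T, h1, h2, h3⟩ := mc_exists c C S'
  rw [h3]
  exact mc_le c (h.trans h1) h2

theorem mc_univ (c : Finset V → ℤ) (C : Finset V) : mc c C Finset.univ = c C := by
  obtain ⟨T, h1, h2, h3⟩ := mc_exists c C Finset.univ
  rw [Finset.univ_inter] at h1
  rw [h3, Finset.Subset.antisymm h2 h1]

/-- The elements before `x`. -/
def pre (x : V) : Finset V := Finset.univ.filter (· < x)

/-- The greedy marginal. -/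
noncomputable def be (c : Finset V → ℤ) (b C : Finset V) (x : V) : ℤ :=
  mc c C (b ∪ insert x (pre x)) - mc c C (b ∪ pre x)

theorem be_nonneg (c : Finset V → ℤ) (b C : Finset V) (x : V) : 0 ≤ be c b C x := by
  unfold be
  have := mc_mono c (C := C) (S := b ∪ pre x) (S' := b ∪ insert x (pre x)) (by
    intro y hy
    simp only [Finset.mem_inter, Finset.mem_union, Finset.mem_insert] at hy ⊢
    tauto)
  linarith

theorem be_eq_zero (c : Finset V → ℤ) {b C : Finset V} {x : V} (h : x ∈ b ∨ x ∉ C) :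
    be c b C x = 0 := by
  unfold be
  have h1 := mc_mono c (C := C) (S := b ∪ pre x) (S' := b ∪ insert x (pre x)) (by
    intro y hy
    simp only [Finset.mem_inter, Finset.mem_union, Finset.mem_insert] at hy ⊢
    tauto)
  have h2 := mc_mono c (C := C) (S' := b ∪ pre x) (S := b ∪ insert x (pre x)) (by
    intro y hy
    simp only [Finset.mem_inter, Finset.mem_union, Finset.mem_insert] at hy ⊢
    rcases hy with ⟨hy1 | rfl | hy1, hy2⟩ <;> tauto)
  linarith

theorem be_anti {c : Finset V → ℤ} (hc : ∀ S T, c (S ∪ T) + c (S ∩ T) ≤ c S + c T)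
    {b b' C C' : Finset V} (hb : b ⊆ b') (hC : C ⊆ C') {x : V} (hx : x ∈ C) :
    be c b' C' x ≤ be c b C x := by
  obtain ⟨T1, h11, h12, h13⟩ := mc_exists c C (b ∪ insert x (pre x))
  obtain ⟨T2, h21, h22, h23⟩ := mc_exists c C' (b' ∪ pre x)
  have hxT1 : x ∈ T1 := h11 (by simp [hx])
  have h3 : mc c C' (b' ∪ insert x (pre x)) ≤ c (T1 ∪ T2) := by
    apply mc_le
    · intro y hy
      simp only [Finset.mem_inter, Finset.mem_union, Finset.mem_insert] at hy ⊢
      rcases hy with ⟨hy1 | rfl | hy1, hy2⟩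
      · exact Or.inr (h21 (by simp [hy1, hy2]))
      · exact Or.inl hxT1
      · exact Or.inr (h21 (by simp [hy1, hy2]))
    · exact Finset.union_subset (h12.trans hC) h22
  have h4 : mc c C (b ∪ pre x) ≤ c (T1 ∩ T2) := by
    apply mc_le
    · intro y hy
      simp only [Finset.mem_inter, Finset.mem_union] at hy ⊢
      constructor
      · apply h11
        simp only [Finset.mem_inter, Finset.mem_union, Finset.mem_insert]
        tauto
      · apply h21
        simp only [Finset.mem_inter, Finset.mem_union]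
        rcases hy with ⟨hy1 | hy1, hy2⟩
        · exact ⟨Or.inl (hb hy1), hC hy2⟩
        · exact ⟨Or.inr hy1, hC hy2⟩
    · exact (Finset.inter_subset_left).trans h12
  have h5 := hc T1 T2
  unfold be
  rw [h13, h23]
  linarith

theorem tele (g : Finset V → ℤ) (s : Finset V) :
    ∑ x ∈ s, (g (insert x (s.filter (· < x))) - g (s.filter (· < x))) = g s - g ∅ := by
  induction s using Finset.induction_on_max with
  | empty => simp
  | insert a s ha ih =>
    have has : a ∉ s := fun h => lt_irrefl _ (ha a h)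
    rw [Finset.sum_insert has]
    have h1 : (insert a s).filter (· < a) = s := by
      ext y
      simp only [Finset.mem_filter, Finset.mem_insert]
      constructor
      · rintro ⟨rfl | h, h2⟩
        · exact absurd h2 (lt_irrefl _)
        · exact h
      · intro h
        exact ⟨Or.inr h, ha y h⟩
    have h2 : ∑ x ∈ s, (g (insert x ((insert a s).filter (· < x)))
        - g ((insert a s).filter (· < x)))
        = ∑ x ∈ s, (g (insert x (s.filter (· < x))) - g (s.filter (· < x))) := by
      apply Finset.sum_congr rfl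
      intro x hx
      have : (insert a s).filter (· < x) = s.filter (· < x) := by
        ext y
        simp only [Finset.mem_filter, Finset.mem_insert]
        constructor
        · rintro ⟨rfl | h, h2⟩
          · exact absurd (h2.trans (ha x hx)) (lt_irrefl _)
          · exact ⟨h, h2⟩
        · rintro ⟨h, h2⟩
          exact ⟨Or.inr h, h2⟩
      rw [this]
    rw [h1, h2, ih]
    ring

theorem be_sum (c : Finset V → ℤ) {b C : Finset V} (hbC : b ⊆ C)
    (hmin : ∀ T, b ⊆ T → T ⊆ C → c b ≤ c T) : ∑ x, be c b C x = c C - c b := by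
  have h := tele (fun P => mc c C (b ∪ P)) Finset.univ
  have h1 : mc c C (b ∪ (∅ : Finset V)) = c b := by
    rw [Finset.union_empty]
    apply le_antisymm
    · exact mc_le c Finset.inter_subset_left hbC
    · obtain ⟨T, hT1, hT2, hT3⟩ := mc_exists c C b
      rw [hT3]
      apply hmin T _ hT2
      rwa [Finset.inter_eq_left.2 hbC] at hT1
  have h2 : mc c C (b ∪ (Finset.univ : Finset V)) = c C := by
    have : b ∪ (Finset.univ : Finset V) = Finset.univ := by
      ext y; simp
    rw [this, mc_univ]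
  simp only [h1, h2] at h
  rw [← h]
  rfl

omit [LinearOrder V] in
/-- Layer cake. -/
theorem layer {f g : V → ℤ} (hf : ∀ a, 0 ≤ f a) (hg : ∀ a, 0 ≤ g a)
    (h : ∀ t : ℤ, 0 ≤ t → (Finset.univ.filter fun a => t < f a).card
      ≤ (Finset.univ.filter fun a => t < g a).card) : ∑ a, f a ≤ ∑ a, g a := by
  classical
  obtain ⟨M, hM⟩ : ∃ M : ℕ, ∀ a, f a ≤ M ∧ g a ≤ M := by
    refine ⟨∑ a, ((f a).toNat + (g a).toNat), fun a => ?_⟩
    have h1 : (f a).toNat + (g a).toNat ≤ ∑ a, ((f a).toNat + (g a).toNat) :=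
      Finset.single_le_sum (f := fun a => (f a).toNat + (g a).toNat)
        (fun _ _ => Nat.zero_le _) (Finset.mem_univ a)
    have h2 := hf a
    have h3 := hg a
    omega
  have key : ∀ k : V → ℤ, (∀ a, 0 ≤ k a) → (∀ a, k a ≤ M) →
      ∑ a, k a = ∑ t ∈ Finset.range M, (((Finset.univ.filter fun a => (t : ℤ) < k a).card : ℕ) : ℤ) := by
    intro k hk0 hkM
    have h1 : ∀ a, k a = ∑ t ∈ Finset.range M, (if (t : ℤ) < k a then (1 : ℤ) else 0) := by
      intro a
      rw [← Finset.sum_filter]
      have : (Finset.range M).filter (fun t : ℕ => (t : ℤ) < k a) = Finset.range (k a).toNat := by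
        ext t
        simp only [Finset.mem_filter, Finset.mem_range]
        have h1 := hk0 a
        have h2 := hkM a
        omega
      rw [this]
      simp [hk0 a]
    calc ∑ a, k a = ∑ a, ∑ t ∈ Finset.range M, (if (t : ℤ) < k a then (1 : ℤ) else 0) :=
          Finset.sum_congr rfl fun a _ => h1 a
      _ = ∑ t ∈ Finset.range M, ∑ a, (if (t : ℤ) < k a then (1 : ℤ) else 0) := Finset.sum_comm
      _ = _ := by
          apply Finset.sum_congr rfl
          intro t _
          rw [← Finset.sum_filter]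
          simp
  rw [key f hf (fun a => (hM a).1), key g hg (fun a => (hM a).2)]
  apply Finset.sum_le_sum
  intro t _
  exact_mod_cast h t (Int.natCast_nonneg t)

/-- (STAR). `r` is the closed arc relation, `U`, `Z` are families of rows, `AU`, `AZ` their column
erosions. -/
theorem star {c : Finset V → ℤ} (hc : ∀ S T, c (S ∪ T) + c (S ∩ T) ≤ c S + c T)
    (r : V → V → Prop) (U Z AU AZ : V → Finset V)
    (hUZ : ∀ a, U a ⊆ Z a)
    (hAU : ∀ z x, x ∈ AU z ↔ ∀ a, r a z → x ∈ U a)
    (hAZ : ∀ z x, x ∈ AZ z ↔ ∀ a, r a z → x ∈ Z a)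
    (hrow : ∀ a S, U a ⊆ S → S ⊆ Z a → c (U a) ≤ c S)
    (hcol : ∀ (x : V) (T : Finset V), (∀ a ∈ T, x ∈ Z a ∧ x ∉ U a) →
      ∃ Q : Finset V, T.card ≤ Q.card ∧ ∀ z ∈ Q, x ∈ AZ z ∧ ∃ a ∈ T, r a z) :
    ∑ a, (c (Z a) - c (U a)) ≤ ∑ z, (c (AZ z) - c (AU z)) := by
  classical
  -- inherited row optimality
  have hinh : ∀ z T, AU z ⊆ T → T ⊆ AZ z → c (AU z) ≤ c T := by
    intro z T hT1 hT2
    have step : ∀ s : Finset V, (∀ a ∈ s, r a z) →
        ∃ T', c T' ≤ c T ∧ (∀ y, y ∈ T' ↔ y ∈ T ∧ ∀ a ∈ s, y ∈ U a) := by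
      intro s
      induction s using Finset.induction_on with
      | empty => intro _; exact ⟨T, le_refl _, fun y => by simp⟩
      | insert a s has ih =>
        intro hs
        obtain ⟨T', h1, h2⟩ := ih (fun b hb => hs b (Finset.mem_insert_of_mem hb))
        refine ⟨T' ∩ U a, ?_, ?_⟩
        · have h3 := hc T' (U a)
          have h4 : c (U a) ≤ c (T' ∪ U a) := by
            apply hrow a _ Finset.subset_union_right
            apply Finset.union_subset _ (hUZ a)
            intro y hy
            exact (hAZ z y).1 (hT2 ((h2 y).1 hy).1) a (hs a (Finset.mem_insert_self _ _))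
          linarith
        · intro y
          rw [Finset.mem_inter, h2]
          constructor
          · rintro ⟨⟨h3, h4⟩, h5⟩
            refine ⟨h3, fun b hb => ?_⟩
            rcases Finset.mem_insert.1 hb with rfl | hb
            · exact h5
            · exact h4 b hb
          · rintro ⟨h3, h4⟩
            exact ⟨⟨h3, fun b hb => h4 b (Finset.mem_insert_of_mem hb)⟩,
              h4 a (Finset.mem_insert_self _ _)⟩
    obtain ⟨T', h1, h2⟩ := step (Finset.univ.filter fun a => r a z) (by simp)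
    have h3 : T' = AU z := by
      ext y
      rw [h2, hAU]
      constructor
      · rintro ⟨_, h4⟩ a ha
        exact h4 a (by simp [ha])
      · intro h4
        refine ⟨hT1 ((hAU z y).2 h4), fun a ha => h4 a (by simpa using ha)⟩
    rw [← h3]
    exact h1
  have hAUZ : ∀ z, AU z ⊆ AZ z := by
    intro z y hy
    rw [hAZ]
    intro a ha
    exact hUZ a ((hAU z y).1 hy a ha)
  have hL : ∑ a, (c (Z a) - c (U a)) = ∑ x, ∑ a, be c (U a) (Z a) x := by
    rw [Finset.sum_comm]
    apply Finset.sum_congr rfl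
    intro a _
    rw [be_sum c (hUZ a) (hrow a)]
  have hR : ∑ z, (c (AZ z) - c (AU z)) = ∑ x, ∑ z, be c (AU z) (AZ z) x := by
    rw [Finset.sum_comm]
    apply Finset.sum_congr rfl
    intro z _
    rw [be_sum c (hAUZ z) (hinh z)]
  rw [hL, hR]
  apply Finset.sum_le_sum
  intro x _
  apply layer (fun a => be_nonneg _ _ _ _) (fun a => be_nonneg _ _ _ _)
  intro t ht
  obtain ⟨Q, hQ1, hQ2⟩ := hcol x (Finset.univ.filter fun a => t < be c (U a) (Z a) x) (by
    intro a ha
    rw [Finset.mem_filter] at ha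
    by_contra hcon
    have : be c (U a) (Z a) x = 0 := be_eq_zero c (by tauto)
    linarith [ha.2])
  apply hQ1.trans
  apply Finset.card_le_card
  intro z hz
  obtain ⟨h1, a, ha, haz⟩ := hQ2 z hz
  rw [Finset.mem_filter] at ha ⊢
  refine ⟨Finset.mem_univ _, lt_of_lt_of_le ha.2 ?_⟩
  apply be_anti hc _ _ h1
  · intro y hy
    exact (hAU z y).1 hy a haz
  · intro y hy
    exact (hAZ z y).1 hy a haz

end Vale.Agent.P038.H473
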